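import Mathlib

/-!
# A lattice inequality (P038, H427)

`cK c K Y = min {c Z : Y ⊆ Z ⊆ K}` for a submodular `c`; the key inequality `key` between two
pairs of families of sets.
-/

namespace Vale.Agent.P038.H427

open Finset Classical

variable {V : Type*} [Fintype V]

/-- `min {c Z : Y ⊆ Z ⊆ K}`. -/
noncomputable def cK (c : Finset V → ℤ) (K Y : Finset V) : ℤ := sInf (c '' Set.Icc Y K)

theorem bdd (c : Finset V → ℤ) (K Y : Finset V) : BddBelow (c '' Set.Icc Y K) :=
  ((Set.toFinite (Set.Icc Y K)).image c).bddBelow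

theorem cK_le (c : Finset V → ℤ) {K Y Z : Finset V} (h1 : Y ⊆ Z) (h2 : Z ⊆ K) :
    cK c K Y ≤ c Z :=
  csInf_le (bdd c K Y) ⟨Z, ⟨h1, h2⟩, rfl⟩

theorem exists_cK (c : Finset V → ℤ) {K Y : Finset V} (h : Y ⊆ K) :
    ∃ Z, Y ⊆ Z ∧ Z ⊆ K ∧ c Z = cK c K Y := by
  obtain ⟨Z, hZ, hZ'⟩ := Int.csInf_mem (s := c '' Set.Icc Y K)
    ⟨c Y, Y, ⟨le_refl Y, h⟩, rfl⟩ (bdd c K Y)
  exact ⟨Z, hZ.1, hZ.2, hZ'⟩

theorem cK_mono (c : Finset V → ℤ) {K Y Y' : Finset V} (h : Y ⊆ Y') (h' : Y' ⊆ K) :
    cK c K Y ≤ cK c K Y' := by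
  obtain ⟨Z, h1, h2, h3⟩ := exists_cK c h'
  rw [← h3]
  exact cK_le c (h.trans h1) h2

theorem cK_self (c : Finset V → ℤ) (K : Finset V) : cK c K K = c K := by
  obtain ⟨Z, h1, h2, h3⟩ := exists_cK c (subset_refl K)
  rw [← h3, Finset.Subset.antisymm h2 h1]

/-- Submodular set functions. -/
def Submod (c : Finset V → ℤ) : Prop := ∀ S T, c (S ∪ T) + c (S ∩ T) ≤ c S + c T

theorem cK_diff {c : Finset V → ℤ} (hc : Submod c) {K K' X Y : Finset V} {b : V}
    (hK : K' ⊆ K) (hX : X ⊆ K') (hXY : X ⊆ Y) (hY : Y ⊆ K) (hb : b ∈ K') :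
    cK c K (insert b Y) - cK c K Y ≤ cK c K' (insert b X) - cK c K' X := by
  obtain ⟨Z', a1, a2, a3⟩ := exists_cK c (Y := insert b X) (K := K') (insert_subset hb hX)
  obtain ⟨Z, b1, b2, b3⟩ := exists_cK c hY
  have h1 := hc Z' Z
  have h2 : cK c K (insert b Y) ≤ c (Z' ∪ Z) :=
    cK_le c (insert_subset (mem_union_left _ (a1 (mem_insert_self _ _)))
      (b1.trans subset_union_right)) (union_subset (a2.trans hK) b2)
  have h3 : cK c K' X ≤ c (Z' ∩ Z) :=
    cK_le c (subset_inter ((subset_insert _ _).trans a1) (hXY.trans b1))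
      (inter_subset_left.trans a2)
  linarith

/-- `⋂_{z ∈ J a} P z`. -/
noncomputable def ls (J P : V → Finset V) (a : V) : Finset V :=
  univ.filter fun x => ∀ z ∈ J a, x ∈ P z

theorem mem_ls {J P : V → Finset V} {a x : V} : x ∈ ls J P a ↔ ∀ z ∈ J a, x ∈ P z := by
  simp [ls]

theorem ls_sub {J P : V → Finset V} {a z : V} (hz : z ∈ J a) : ls J P a ⊆ P z :=
  fun _ hx => mem_ls.1 hx z hz

theorem ls_mono {J P Q : V → Finset V} (h : ∀ a, P a ⊆ Q a) (a : V) : ls J P a ⊆ ls J Q a :=
  fun _ hx => mem_ls.2 fun z hz => h z (mem_ls.1 hx z hz)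

theorem bottom {c : Finset V → ℤ} (hc : Submod c) {P Q : V → Finset V}
    (hR : ∀ a S, P a ⊆ S → S ⊆ Q a → c (P a) ≤ c S) (hPQ : ∀ a, P a ⊆ Q a)
    (J : V → Finset V) (a : V) (Z : Finset V)
    (h1 : ls J P a ⊆ Z) (h2 : Z ⊆ ls J Q a) : c (ls J P a) ≤ c Z := by
  have key : ∀ I : Finset V, I ⊆ J a → c (Z.filter fun x => ∀ z ∈ I, x ∈ P z) ≤ c Z := by
    intro I
    induction I using Finset.induction_on with
    | empty => intro _; simp
    | insert z I hz ih =>
      intro hI
      have h3 := ih ((subset_insert _ _).trans hI)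
      have hz' : z ∈ J a := hI (mem_insert_self _ _)
      have h4 : (Z.filter fun x => ∀ y ∈ insert z I, x ∈ P y) =
          (Z.filter fun x => ∀ y ∈ I, x ∈ P y) ∩ P z := by
        ext x
        simp only [mem_filter, mem_insert, forall_eq_or_imp, mem_inter]
        tauto
      rw [h4]
      have h5 := hc (Z.filter fun x => ∀ y ∈ I, x ∈ P y) (P z)
      have h6 := hR z ((Z.filter fun x => ∀ y ∈ I, x ∈ P y) ∪ P z) subset_union_right
        (union_subset ((filter_subset _ _).trans (h2.trans (ls_sub hz'))) (hPQ z))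
      linarith
  have h3 := key (J a) subset_rfl
  have h4 : (Z.filter fun x => ∀ z ∈ J a, x ∈ P z) = ls J P a := by
    ext x
    simp only [mem_filter, mem_ls]
    exact ⟨fun h => h.2, fun h => ⟨h1 (mem_ls.2 h), h⟩⟩
  rwa [h4] at h3

theorem lay1 (M : ℕ) (t : ℤ) (h0 : 0 ≤ t) (h1 : t ≤ M) :
    t = ∑ s ∈ range M, (if (s : ℤ) < t then 1 else 0) := by
  rw [← Finset.sum_filter]
  have : (range M).filter (fun s : ℕ => (s : ℤ) < t) = range t.toNat := by
    ext s
    simp only [mem_filter, mem_range]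
    omega
  rw [this]
  simp
  omega

/-- Layer cake comparison. -/
theorem layer (y m : V → ℤ) (hy : ∀ a, 0 ≤ y a) (hm : ∀ a, 0 ≤ m a)
    (h : ∀ s : ℤ, 0 ≤ s → (univ.filter fun a => s < y a).card ≤
      (univ.filter fun a => s < m a).card) : ∑ a, y a ≤ ∑ a, m a := by
  obtain ⟨M, hM1, hM2⟩ : ∃ M : ℕ, (∀ a, y a ≤ M) ∧ (∀ a, m a ≤ M) := by
    refine ⟨(∑ a, (y a).toNat) + ∑ a, (m a).toNat, fun a => ?_, fun a => ?_⟩
    · have := Finset.single_le_sum (f := fun a => (y a).toNat) (fun _ _ => Nat.zero_le _)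
        (mem_univ a)
      have h2 := hy a
      push_cast
      have h3 : ((y a).toNat : ℤ) ≤ ((∑ a, (y a).toNat : ℕ) : ℤ) := by exact_mod_cast this
      have h4 : (0 : ℤ) ≤ ((∑ a, (m a).toNat : ℕ) : ℤ) := by positivity
      push_cast at h3 h4
      omega
    · have := Finset.single_le_sum (f := fun a => (m a).toNat) (fun _ _ => Nat.zero_le _)
        (mem_univ a)
      have h2 := hm a
      push_cast
      have h3 : ((m a).toNat : ℤ) ≤ ((∑ a, (m a).toNat : ℕ) : ℤ) := by exact_mod_cast this
      have h4 : (0 : ℤ) ≤ ((∑ a, (y a).toNat : ℕ) : ℤ) := by positivity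
      push_cast at h3 h4
      omega
  have e1 : ∑ a, y a = ∑ s ∈ range M, ((univ.filter fun a => (s : ℤ) < y a).card : ℤ) := by
    rw [Finset.sum_congr rfl fun a _ => lay1 M (y a) (hy a) (hM1 a), Finset.sum_comm]
    refine Finset.sum_congr rfl fun s _ => ?_
    rw [← Finset.sum_filter]
    simp
  have e2 : ∑ a, m a = ∑ s ∈ range M, ((univ.filter fun a => (s : ℤ) < m a).card : ℤ) := by
    rw [Finset.sum_congr rfl fun a _ => lay1 M (m a) (hm a) (hM2 a), Finset.sum_comm]
    refine Finset.sum_congr rfl fun s _ => ?_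
    rw [← Finset.sum_filter]
    simp
  rw [e1, e2]
  refine Finset.sum_le_sum fun s _ => ?_
  exact_mod_cast h s (by positivity)

/-- The key inequality. -/
theorem key {c : Finset V → ℤ} (hc : Submod c) {P Q : V → Finset V}
    (hPQ : ∀ a, P a ⊆ Q a) (hR : ∀ a S, P a ⊆ S → S ⊆ Q a → c (P a) ≤ c S)
    (J : V → Finset V)
    (hC : ∀ (b : V) (T : Finset V), (∀ a ∈ T, b ∈ Q a ∧ b ∉ P a) →
      T.card ≤ (univ.filter fun a' => b ∈ ls J Q a' ∧ ∃ z ∈ J a', z ∈ T).card) :
    ∑ a, (c (Q a) - c (P a)) ≤ ∑ a, (c (ls J Q a) - c (ls J P a)) := by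
  have claim : ∀ W : Finset V, ∑ a, (cK c (Q a) (P a ∪ (W ∩ Q a)) - c (P a)) ≤
      ∑ a, (cK c (ls J Q a) (ls J P a ∪ (W ∩ ls J Q a)) - c (ls J P a)) := by
    intro W
    induction W using Finset.induction_on with
    | empty =>
      refine Finset.sum_le_sum fun a _ => ?_
      simp only [empty_inter, union_empty]
      have h1 := cK_le c (subset_refl (P a)) (hPQ a)
      obtain ⟨Z, b1, b2, b3⟩ := exists_cK c (ls_mono (J := J) hPQ a)
      have h2 := bottom hc hR hPQ J a Z b1 b2
      linarith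
    | insert b W hb ih =>
      have hPin : ∀ a (W : Finset V), P a ∪ (W ∩ Q a) ⊆ Q a := fun a W =>
        union_subset (hPQ a) inter_subset_right
      have hSin : ∀ a (W : Finset V), ls J P a ∪ (W ∩ ls J Q a) ⊆ ls J Q a := fun a W =>
        union_subset (ls_mono hPQ a) inter_subset_right
      have hlay := layer
        (fun a => cK c (Q a) (P a ∪ (insert b W ∩ Q a)) - cK c (Q a) (P a ∪ (W ∩ Q a)))
        (fun a => cK c (ls J Q a) (ls J P a ∪ (insert b W ∩ ls J Q a)) -
          cK c (ls J Q a) (ls J P a ∪ (W ∩ ls J Q a)))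
        (fun a => sub_nonneg.2 (cK_mono c (union_subset_union subset_rfl
          (inter_subset_inter (subset_insert _ _) subset_rfl)) (hPin a _)))
        (fun a => sub_nonneg.2 (cK_mono c (union_subset_union subset_rfl
          (inter_subset_inter (subset_insert _ _) subset_rfl)) (hSin a _)))
        (by
          intro s hs
          have hT := hC b (univ.filter fun a => s < cK c (Q a) (P a ∪ (insert b W ∩ Q a)) -
            cK c (Q a) (P a ∪ (W ∩ Q a))) (by
              intro a ha
              have ha := (mem_filter.1 ha).2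
              constructor
              · by_contra hbQ
                rw [insert_inter_of_notMem hbQ] at ha
                linarith
              · intro hbP
                have : P a ∪ (insert b W ∩ Q a) = P a ∪ (W ∩ Q a) := by
                  rw [insert_inter_of_mem (hPQ a hbP)]
                  ext x
                  simp only [mem_union, mem_insert, mem_inter]
                  constructor
                  · rintro (h | rfl | h)
                    · exact Or.inl h
                    · exact Or.inl hbP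
                    · exact Or.inr h
                  · rintro (h | h)
                    · exact Or.inl h
                    · exact Or.inr (Or.inr h)
                rw [this] at ha
                linarith)
          refine hT.trans (card_le_card ?_)
          intro a' ha'
          obtain ⟨hb1, z, hz, hzT⟩ := (mem_filter.1 ha').2
          have hzT := (mem_filter.1 hzT).2
          have hbz : b ∈ Q z := ls_sub hz hb1
          rw [mem_filter]
          refine ⟨mem_univ _, ?_⟩
          have h1 := cK_diff hc (K := Q z) (K' := ls J Q a')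
            (X := ls J P a' ∪ (W ∩ ls J Q a')) (Y := P z ∪ (W ∩ Q z)) (b := b)
            (ls_sub hz) (hSin a' W)
            (union_subset_union (ls_sub hz) (inter_subset_inter subset_rfl (ls_sub hz)))
            (hPin z W) hb1
          rw [insert_inter_of_mem hb1, union_insert]
          rw [insert_inter_of_mem hbz, union_insert] at hzT
          linarith)
      have hs1 : ∑ a, (cK c (Q a) (P a ∪ (insert b W ∩ Q a)) - c (P a)) =
          ∑ a, (cK c (Q a) (P a ∪ (W ∩ Q a)) - c (P a)) +
          ∑ a, (cK c (Q a) (P a ∪ (insert b W ∩ Q a)) - cK c (Q a) (P a ∪ (W ∩ Q a))) := by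
        rw [← Finset.sum_add_distrib]
        exact Finset.sum_congr rfl fun a _ => by ring
      have hs2 : ∑ a, (cK c (ls J Q a) (ls J P a ∪ (insert b W ∩ ls J Q a)) - c (ls J P a)) =
          ∑ a, (cK c (ls J Q a) (ls J P a ∪ (W ∩ ls J Q a)) - c (ls J P a)) +
          ∑ a, (cK c (ls J Q a) (ls J P a ∪ (insert b W ∩ ls J Q a)) -
            cK c (ls J Q a) (ls J P a ∪ (W ∩ ls J Q a))) := by
        rw [← Finset.sum_add_distrib]
        exact Finset.sum_congr rfl fun a _ => by ring
      rw [hs1, hs2]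
      exact add_le_add ih hlay
  have h1 := claim univ
  have e1 : ∀ a, P a ∪ (univ ∩ Q a) = Q a := fun a => by
    rw [univ_inter]
    exact union_eq_right.2 (hPQ a)
  have e2 : ∀ a, ls J P a ∪ (univ ∩ ls J Q a) = ls J Q a := fun a => by
    rw [univ_inter]
    exact union_eq_right.2 (ls_mono hPQ a)
  simpa only [e1, e2, cK_self] using h1

end Vale.Agent.P038.H427
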