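import Vale.Agent.P038.H427.Strict

/-!
# Seymour's second neighbourhood conjecture (P038, H427)
-/

namespace Vale.Agent.P038.H427

open Finset Classical

variable {V : Type*} [Fintype V]

theorem dcount (R : V → Finset V) :
    ∑ a, ((R a).card : ℤ) = ∑ b, ((univ.filter fun a => b ∈ R a).card : ℤ) := by
  have h1 : ∀ a, ((R a).card : ℤ) = ∑ b, if b ∈ R a then 1 else 0 := fun a => by simp
  have h2 : ∀ b, ((univ.filter fun a => b ∈ R a).card : ℤ) = ∑ a, if b ∈ R a then 1 else 0 :=
    fun b => by simp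
  simp only [h1, h2]
  exact Finset.sum_comm

/-- Seymour's second neighbourhood conjecture. -/
theorem snc [Nonempty V] (D : OGraph V) : ∃ v, (N1 D v).card ≤ (N2 D v).card := by
  by_contra hcon
  push Not at hcon
  obtain ⟨D, hD, hmin⟩ := exists_arcmin D hcon
  obtain ⟨P2, Q2, hV2, hm2⟩ := exists_min D (E2 D)
  obtain ⟨B0, C0, hV0, hE0⟩ := shift hV2 hm2
  obtain ⟨B, Q, hV, hm⟩ := exists_min D (E1 D)
  set X : V → Finset V := fun a => rs D B a with hXdef
  set Y : V → Finset V := fun b => univ.filter fun z =>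
    (z = b ∨ b ∉ Q z) ∧ ∀ y, D.arc z y → (y = b ∨ b ∉ Q y) with hYdef
  set B1 : V → Finset V := fun a => clo D (X a) with hB1
  set Q1 : V → Finset V := fun a => univ.filter fun b => a = b ∨ a ∉ clo D (Y b) with hQ1
  have memY : ∀ b z, z ∈ Y b ↔ (z = b ∨ b ∉ Q z) ∧ ∀ y, D.arc z y → (y = b ∨ b ∉ Q y) :=
    fun b z => by simp [hYdef]
  have memQ1 : ∀ a b, b ∈ Q1 a ↔ a = b ∨ a ∉ clo D (Y b) := fun a b => by simp [hQ1]
  have hXB : ∀ a, clo D (X a) ⊆ B a := by
    intro a x hx
    rcases mem_clo.1 hx with hx | ⟨y, hy, hyx⟩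
    · exact (mem_rs.1 hx).1
    · exact (mem_rs.1 hy).2 x hyx
  have haX : ∀ a, a ∈ X a := fun a => mem_rs.2 ⟨hV.ref a, fun u hu => hV.arc a u hu⟩
  have hbY : ∀ b, b ∈ Y b := fun b => (memY b b).2
    ⟨Or.inl rfl, fun y hy => Or.inr fun h => hV.rev y b h hy⟩
  have hcY : ∀ b a, a ∈ clo D (Y b) → a = b ∨ b ∉ Q a := by
    intro b a ha
    rcases mem_clo.1 ha with ha | ⟨z, hz, hza⟩
    · exact ((memY b a).1 ha).1
    · exact ((memY b z).1 hz).2 a hza
  have hV1 : Valid D B1 Q1 := by
    refine ⟨fun a => sub_clo _ _ (haX a), fun a x hx => mem_clo.2 (Or.inr ⟨a, haX a, hx⟩),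
      fun a x hx => ?_, fun a b hb hba => ?_⟩
    · rw [memQ1]
      by_cases hax : a = x
      · exact Or.inl hax
      · refine Or.inr fun ha => ?_
        rcases hcY x a ha with h | h
        · exact hax h
        · exact h (hV.sub a (hXB a hx))
    · rcases (memQ1 a b).1 hb with rfl | h
      · exact D.loopless _ hba
      · exact h (mem_clo.2 (Or.inr ⟨b, hbY b, hba⟩))
  have h1 : ∑ a, cc D (X a) + ∑ b, cc D (Y b) ≤ E1 D B Q := by
    have e : E1 D B Q = ∑ a, (((B a).card : ℤ) - (rs D B a).card) +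
        ∑ a, (((lu D Q a \ Q a).card : ℕ) : ℤ) := by
      unfold E1
      rw [← Finset.sum_add_distrib]
      refine Finset.sum_congr rfl fun a _ => ?_
      have hsub : Q a ⊆ lu D Q a := fun x hx => mem_lu.2 (Or.inl hx)
      have := card_sdiff_add_card_eq_card hsub
      omega
    rw [e, dcount]
    refine add_le_add (Finset.sum_le_sum fun a _ => ?_) (Finset.sum_le_sum fun b _ => ?_)
    · have := card_le_card (hXB a)
      unfold cc
      simp only [hXdef] at this ⊢
      omega
    · have hsub : clo D (Y b) \ Y b ⊆ univ.filter fun a => b ∈ lu D Q a \ Q a := by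
        intro a ha
        obtain ⟨ha1, ha2⟩ := mem_sdiff.1 ha
        have hab : a ≠ b := by
          rintro rfl
          exact ha2 (hbY a)
        have hbQ : b ∉ Q a := by
          rcases hcY b a ha1 with h | h
          · exact absurd h hab
          · exact h
        refine mem_filter.2 ⟨mem_univ _, mem_sdiff.2 ⟨mem_lu.2 (Or.inr ?_), hbQ⟩⟩
        by_contra hno
        apply ha2
        rw [memY]
        refine ⟨Or.inr hbQ, fun y hy => ?_⟩
        by_contra h3
        push Not at h3
        exact hno ⟨y, hy, h3.2⟩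
      have h3 := card_le_card hsub
      have h4 := card_sdiff_add_card_eq_card (sub_clo D (Y b))
      unfold cc
      omega
  have h2 : E2 D B1 Q1 ≤ ∑ a, cc D (clo D (X a)) + ∑ b, cc D (clo D (Y b)) := by
    have e : E2 D B1 Q1 = ∑ a, cc D (clo D (X a)) +
        ∑ a, (((Q1 a \ ls (ni D) Q1 a).card : ℕ) : ℤ) := by
      unfold E2
      rw [← Finset.sum_add_distrib]
      refine Finset.sum_congr rfl fun a _ => ?_
      have hsub : ls (ni D) Q1 a ⊆ Q1 a := ls_sub (mem_ni.2 (Or.inl rfl))
      have := card_sdiff_add_card_eq_card hsub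
      have h5 : B1 a = clo D (X a) := rfl
      rw [h5]
      omega
    rw [e, dcount]
    refine add_le_add le_rfl (Finset.sum_le_sum fun b _ => ?_)
    have hsub : (univ.filter fun a => b ∈ Q1 a \ ls (ni D) Q1 a) ⊆
        clo D (clo D (Y b)) \ clo D (Y b) := by
      intro a ha
      obtain ⟨ha1, ha2⟩ := mem_sdiff.1 (mem_filter.1 ha).2
      rw [mem_ls] at ha2
      push Not at ha2
      obtain ⟨z, hz, hbz⟩ := ha2
      rw [memQ1] at hbz
      push Not at hbz
      obtain ⟨hzb, hzY⟩ := hbz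
      have hbQz : b ∉ Q z := by
        rcases hcY b z hzY with h | h
        · exact absurd h hzb
        · exact h
      have hzb' : ¬ D.arc z b := fun h => hbQz (hV.sub z (hV.arc z b h))
      have hab : a ≠ b := by
        rintro rfl
        rcases mem_ni.1 hz with h | h
        · exact hzb h
        · exact hzb' h
      have haY : a ∉ clo D (Y b) := by
        rcases (memQ1 a b).1 ha1 with h | h
        · exact absurd h hab
        · exact h
      refine mem_sdiff.2 ⟨?_, haY⟩
      rcases mem_ni.1 hz with rfl | h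
      · exact absurd hzY haY
      · exact mem_clo.2 (Or.inr ⟨z, hzY, h⟩)
    have h3 := card_le_card hsub
    have h4 := card_sdiff_add_card_eq_card (sub_clo D (clo D (Y b)))
    unfold cc
    omega
  have h3 : E1 D B Q ≤ E2 D B1 Q1 := (hm _ _ hV0).trans (hE0.trans (hm2 _ _ hV1))
  have hG : ∀ S, cc D (clo D S) ≤ cc D S := by
    intro S
    by_cases h : clo D S = S
    · rw [h]
    · exact (strictG hD hmin S h).le
  have h4 : ∀ a, clo D (X a) = X a := by
    intro a
    by_contra hne
    have h5 : ∑ a, cc D (clo D (X a)) < ∑ a, cc D (X a) :=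
      Finset.sum_lt_sum (fun a _ => hG (X a)) ⟨a, mem_univ _, strictG hD hmin _ hne⟩
    have h6 : ∑ b, cc D (clo D (Y b)) ≤ ∑ b, cc D (Y b) :=
      Finset.sum_le_sum fun b _ => hG (Y b)
    linarith
  obtain ⟨C, hC, hCmin⟩ := exists_min_image
    (univ.filter fun C : Finset V => C.Nonempty ∧ clo D C = C) Finset.card
    ⟨univ, mem_filter.2 ⟨mem_univ _, univ_nonempty,
      Subset.antisymm (subset_univ _) (sub_clo D _)⟩⟩
  obtain ⟨⟨a, ha⟩, hCcl⟩ := (mem_filter.1 hC).2
  obtain ⟨b, hb⟩ : (N1 D a).Nonempty := card_pos.1 (lt_of_le_of_lt (Nat.zero_le _) (hD a))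
  have hab : D.arc a b := mem_N1.1 hb
  have hbC : b ∈ C := by
    rw [← hCcl]
    exact mem_clo.2 (Or.inr ⟨a, ha, hab⟩)
  have hcl : clo D (X b ∩ C) = X b ∩ C := by
    refine Subset.antisymm (subset_inter ?_ ?_) (sub_clo D _)
    · exact (clo_mono inter_subset_left).trans (h4 b).subset
    · exact (clo_mono inter_subset_right).trans hCcl.subset
  have h5 := hCmin (X b ∩ C) (mem_filter.2 ⟨mem_univ _, ⟨b, mem_inter.2 ⟨haX b, hbC⟩⟩, hcl⟩)
  have h6 : X b ∩ C = C := eq_of_subset_of_card_le inter_subset_right h5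
  have h7 : a ∈ X b := (mem_inter.1 (h6.symm.subset ha)).1
  exact hV.rev b a (hV.sub b (hXB b (sub_clo D _ h7))) hab

end Vale.Agent.P038.H427
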