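import Vale.Agent.P038.Defs
import Vale.Agent.P038.H427.Lat

/-!
# The two min-cut problems and the shift (P038, H427)
-/

namespace Vale.Agent.P038.H427

open Finset Classical

variable {V : Type*} [Fintype V]

/-- The closed out-neighbourhood of a set. -/
noncomputable def clo (D : OGraph V) (S : Finset V) : Finset V :=
  univ.filter fun x => x ∈ S ∨ ∃ y ∈ S, D.arc y x

/-- The closed in-neighbourhood of a vertex. -/
noncomputable def ni (D : OGraph V) (a : V) : Finset V :=
  univ.filter fun z => z = a ∨ D.arc z a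

theorem mem_clo {D : OGraph V} {S : Finset V} {x : V} :
    x ∈ clo D S ↔ x ∈ S ∨ ∃ y ∈ S, D.arc y x := by
  simp [clo]

theorem mem_ni {D : OGraph V} {a z : V} : z ∈ ni D a ↔ z = a ∨ D.arc z a := by
  simp [ni]

theorem sub_clo (D : OGraph V) (S : Finset V) : S ⊆ clo D S := fun _ hx => mem_clo.2 (Or.inl hx)

theorem clo_mono {D : OGraph V} {S T : Finset V} (h : S ⊆ T) : clo D S ⊆ clo D T := by
  intro x hx
  rcases mem_clo.1 hx with hx | ⟨y, hy, hyx⟩
  · exact mem_clo.2 (Or.inl (h hx))
  · exact mem_clo.2 (Or.inr ⟨y, h hy, hyx⟩)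

theorem clo_union (D : OGraph V) (S T : Finset V) : clo D (S ∪ T) = clo D S ∪ clo D T := by
  ext x
  simp only [mem_clo, mem_union]
  constructor
  · rintro ((h | h) | ⟨y, h | h, hyx⟩)
    · exact Or.inl (Or.inl h)
    · exact Or.inr (Or.inl h)
    · exact Or.inl (Or.inr ⟨y, h, hyx⟩)
    · exact Or.inr (Or.inr ⟨y, h, hyx⟩)
  · rintro ((h | ⟨y, h, hyx⟩) | (h | ⟨y, h, hyx⟩))
    · exact Or.inl (Or.inl h)
    · exact Or.inr ⟨y, Or.inl h, hyx⟩
    · exact Or.inl (Or.inr h)
    · exact Or.inr ⟨y, Or.inr h, hyx⟩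

/-- `|N[S]| - |S|`. -/
noncomputable def cc (D : OGraph V) (S : Finset V) : ℤ := ((clo D S).card : ℤ) - S.card

theorem cc_nonneg (D : OGraph V) (S : Finset V) : 0 ≤ cc D S := by
  have := card_le_card (sub_clo D S)
  unfold cc
  omega

theorem cc_submod (D : OGraph V) : Submod (cc D) := by
  intro S T
  have h1 : (clo D (S ∩ T)).card ≤ (clo D S ∩ clo D T).card :=
    card_le_card (subset_inter (clo_mono inter_subset_left) (clo_mono inter_subset_right))
  have h2 := card_union_add_card_inter (clo D S) (clo D T)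
  have h3 := card_union_add_card_inter S T
  unfold cc
  rw [clo_union]
  omega

/-- Feasible pairs of families. -/
structure Valid (D : OGraph V) (P Q : V → Finset V) : Prop where
  ref : ∀ a, a ∈ P a
  arc : ∀ a x, D.arc a x → x ∈ P a
  sub : ∀ a, P a ⊆ Q a
  rev : ∀ a x, x ∈ Q a → ¬ D.arc x a

/-- Interior of the rows. -/
noncomputable def rs (D : OGraph V) (P : V → Finset V) (a : V) : Finset V :=
  univ.filter fun x => x ∈ P a ∧ ∀ u, D.arc x u → u ∈ P a

/-- Dilation of the columns. -/
noncomputable def lu (D : OGraph V) (Q : V → Finset V) (a : V) : Finset V :=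
  univ.filter fun x => x ∈ Q a ∨ ∃ y, D.arc a y ∧ x ∈ Q y

theorem mem_rs {D : OGraph V} {P : V → Finset V} {a x : V} :
    x ∈ rs D P a ↔ x ∈ P a ∧ ∀ u, D.arc x u → u ∈ P a := by
  simp [rs]

theorem mem_lu {D : OGraph V} {Q : V → Finset V} {a x : V} :
    x ∈ lu D Q a ↔ x ∈ Q a ∨ ∃ y, D.arc a y ∧ x ∈ Q y := by
  simp [lu]

/-- Inner cost. -/
noncomputable def E1 (D : OGraph V) (P Q : V → Finset V) : ℤ :=
  ∑ a, (((P a).card : ℤ) - (rs D P a).card + ((lu D Q a).card - (Q a).card))

/-- Outer cost. -/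
noncomputable def E2 (D : OGraph V) (P Q : V → Finset V) : ℤ :=
  ∑ a, (cc D (P a) + (((Q a).card : ℤ) - (ls (ni D) Q a).card))

theorem valid_nonempty (D : OGraph V) :
    Valid D (fun a => univ.filter fun x => x = a ∨ D.arc a x)
      (fun a => univ.filter fun x => x = a ∨ D.arc a x) where
  ref a := by simp
  arc a x h := by simp [h]
  sub a := subset_rfl
  rev a x hx h := by
    rcases (mem_filter.1 hx).2 with rfl | h'
    · exact D.loopless _ h
    · exact D.asymm _ _ h h'

theorem exists_min (D : OGraph V) (f : (V → Finset V) → (V → Finset V) → ℤ) :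
    ∃ P Q, Valid D P Q ∧ ∀ P' Q', Valid D P' Q' → f P Q ≤ f P' Q' := by
  obtain ⟨⟨P, Q⟩, h1, h2⟩ := Set.exists_min_image
    {p : (V → Finset V) × (V → Finset V) | Valid D p.1 p.2} (fun p => f p.1 p.2)
    (Set.toFinite _) ⟨(_, _), valid_nonempty D⟩
  exact ⟨P, Q, h1, fun P' Q' h => h2 (P', Q') h⟩

theorem sum_one_le {f g : V → ℤ} (a : V) (h : ∑ x, f x ≤ ∑ x, g x)
    (hx : ∀ x, x ≠ a → f x = g x) : f a ≤ g a := by
  rw [← Finset.add_sum_erase _ _ (mem_univ a), ← Finset.add_sum_erase _ g (mem_univ a)] at h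
  have : ∑ x ∈ univ.erase a, f x = ∑ x ∈ univ.erase a, g x :=
    Finset.sum_congr rfl fun x hx' => hx x (ne_of_mem_erase hx')
  rw [this] at h
  linarith

/-- Row optimality. -/
theorem row_opt {D : OGraph V} {P Q : V → Finset V} (hV : Valid D P Q)
    (hmin : ∀ P' Q', Valid D P' Q' → E2 D P Q ≤ E2 D P' Q') (a : V) (S : Finset V)
    (h1 : P a ⊆ S) (h2 : S ⊆ Q a) : cc D (P a) ≤ cc D S := by
  have hV' : Valid D (fun x => if x = a then S else P x) Q := by
    refine ⟨fun x => ?_, fun x y h => ?_, fun x => ?_, hV.rev⟩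
    · by_cases hx : x = a
      · subst hx; simp only [if_pos]; exact h1 (hV.ref x)
      · simp only [if_neg hx]; exact hV.ref x
    · by_cases hx : x = a
      · subst hx; simp only [if_pos]; exact h1 (hV.arc x y h)
      · simp only [if_neg hx]; exact hV.arc x y h
    · by_cases hx : x = a
      · subst hx; simp only [if_pos]; exact h2
      · simp only [if_neg hx]; exact hV.sub x
  have h := hmin _ _ hV'
  unfold E2 at h
  have h3 := sum_one_le a h (fun x hx => by simp only [if_neg hx])
  simp only [if_pos] at h3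
  linarith

/-- Column optimality. -/
theorem col_opt {D : OGraph V} {P Q : V → Finset V} (hV : Valid D P Q)
    (hmin : ∀ P' Q', Valid D P' Q' → E2 D P Q ≤ E2 D P' Q') (b : V) (T : Finset V)
    (hT : ∀ a ∈ T, b ∈ Q a ∧ b ∉ P a) :
    T.card ≤ (univ.filter fun a' => b ∈ ls (ni D) Q a' ∧ ∃ z ∈ ni D a', z ∈ T).card := by
  set C := univ.filter fun a' => b ∈ ls (ni D) Q a' ∧ ∃ z ∈ ni D a', z ∈ T with hCdef
  set Q' : V → Finset V := fun a => if a ∈ T then (Q a).erase b else Q a with hQ'
  have hV' : Valid D P Q' := by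
    refine ⟨hV.ref, hV.arc, fun a => ?_, fun a x hx => ?_⟩
    · by_cases ha : a ∈ T
      · simp only [hQ', if_pos ha]
        exact subset_erase.2 ⟨hV.sub a, (hT a ha).2⟩
      · simp only [hQ', if_neg ha]; exact hV.sub a
    · by_cases ha : a ∈ T
      · simp only [hQ', if_pos ha] at hx
        exact hV.rev a x (mem_of_mem_erase hx)
      · simp only [hQ', if_neg ha] at hx
        exact hV.rev a x hx
  have h := hmin _ _ hV'
  have h1 : E2 D P Q' ≤ E2 D P Q + (C.card - T.card) := by
    have e : ((C.card : ℤ) - T.card) =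
        ∑ a, ((if a ∈ C then (1 : ℤ) else 0) - (if a ∈ T then 1 else 0)) := by
      rw [Finset.sum_sub_distrib]
      simp
    rw [e]
    unfold E2
    rw [← Finset.sum_add_distrib]
    refine Finset.sum_le_sum fun a _ => ?_
    have h2 : ((Q' a).card : ℤ) = (Q a).card - (if a ∈ T then 1 else 0) := by
      by_cases ha : a ∈ T
      · simp only [hQ', if_pos ha]
        have := card_erase_add_one (hT a ha).1
        omega
      · simp only [hQ', if_neg ha]; ring
    have h3 : ((ls (ni D) Q a).card : ℤ) ≤ (ls (ni D) Q' a).card + (if a ∈ C then 1 else 0) := by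
      by_cases ha : a ∈ C
      · simp only [if_pos ha]
        have : ls (ni D) Q a ⊆ insert b (ls (ni D) Q' a) := by
          intro x hx
          by_cases hxb : x = b
          · rw [hxb]; exact mem_insert_self _ _
          · refine mem_insert_of_mem (mem_ls.2 fun z hz => ?_)
            have := mem_ls.1 hx z hz
            by_cases hzT : z ∈ T
            · simp only [hQ', if_pos hzT]
              exact mem_erase.2 ⟨hxb, this⟩
            · simp only [hQ', if_neg hzT]; exact this
        have h4 := card_le_card this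
        have h5 := card_insert_le b (ls (ni D) Q' a)
        omega
      · simp only [if_neg ha]
        have : ls (ni D) Q a ⊆ ls (ni D) Q' a := by
          intro x hx
          refine mem_ls.2 fun z hz => ?_
          have h4 := mem_ls.1 hx z hz
          by_cases hzT : z ∈ T
          · simp only [hQ', if_pos hzT]
            refine mem_erase.2 ⟨?_, h4⟩
            rintro rfl
            exact ha (mem_filter.2 ⟨mem_univ _, hx, z, hz, hzT⟩)
          · simp only [hQ', if_neg hzT]; exact h4
        have h4 := card_le_card this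
        omega
    rw [h2]
    linarith
  have h2 : (T.card : ℤ) ≤ C.card := by linarith
  exact_mod_cast h2

/-- The minimum of the inner cost is at most the minimum of the outer cost. -/
theorem shift {D : OGraph V} {P Q : V → Finset V} (hV : Valid D P Q)
    (hmin : ∀ P' Q', Valid D P' Q' → E2 D P Q ≤ E2 D P' Q') :
    ∃ B C, Valid D B C ∧ E1 D B C ≤ E2 D P Q := by
  have hkey := key (cc_submod D) hV.sub (fun a S h1 h2 => row_opt hV hmin a S h1 h2) (ni D)
    (fun b T hT => col_opt hV hmin b T hT)
  set S := ls (ni D) P with hS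
  set S' := ls (ni D) Q with hS'
  have hSS : ∀ a, S a ⊆ S' a := ls_mono hV.sub
  have hself : ∀ a, a ∈ ni D a := fun a => mem_ni.2 (Or.inl rfl)
  refine ⟨fun a => clo D (S a), fun a => clo D (S' a), ⟨?_, ?_, ?_, ?_⟩, ?_⟩
  · intro a
    refine sub_clo _ _ (mem_ls.2 fun z hz => ?_)
    rcases mem_ni.1 hz with rfl | hz
    · exact hV.ref _
    · exact hV.arc _ _ hz
  · intro a x hax
    refine mem_clo.2 (Or.inr ⟨a, mem_ls.2 fun z hz => ?_, hax⟩)
    rcases mem_ni.1 hz with rfl | hz
    · exact hV.ref _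
    · exact hV.arc _ _ hz
  · intro a
    exact clo_mono (hSS a)
  · intro a x hx hxa
    rcases mem_clo.1 hx with hx | ⟨y, hy, hyx⟩
    · exact hV.rev a x (ls_sub (hself a) hx) hxa
    · have h1 : y ∈ Q x := ls_sub (mem_ni.2 (Or.inr hxa)) hy
      exact hV.rev x y h1 hyx
  · have h1 : ∀ a, (((clo D (S a)).card : ℤ) - (rs D (fun a => clo D (S a)) a).card) ≤
        cc D (S a) := by
      intro a
      have : S a ⊆ rs D (fun a => clo D (S a)) a := by
        intro x hx
        exact mem_rs.2 ⟨sub_clo _ _ hx, fun u hu => mem_clo.2 (Or.inr ⟨x, hx, hu⟩)⟩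
      have := card_le_card this
      unfold cc
      omega
    have h2 : ∀ a, lu D (fun a => clo D (S' a)) a ⊆ clo D (Q a) := by
      intro a x hx
      rcases mem_lu.1 hx with hx | ⟨y, hay, hx⟩
      · exact clo_mono (ls_sub (hself a)) hx
      · exact clo_mono (ls_sub (mem_ni.2 (Or.inr hay))) hx
    unfold E1 E2
    have h3 : ∑ a, (((clo D (S a)).card : ℤ) - (rs D (fun a => clo D (S a)) a).card +
        ((lu D (fun a => clo D (S' a)) a).card - (clo D (S' a)).card)) ≤
        ∑ a, (cc D (S a) + ((clo D (Q a)).card - (clo D (S' a)).card)) := by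
      refine Finset.sum_le_sum fun a _ => ?_
      have h4 := h1 a
      have h5 := card_le_card (h2 a)
      omega
    refine h3.trans ?_
    have h4 : ∑ a, (cc D (S a) + (((clo D (Q a)).card : ℤ) - (clo D (S' a)).card)) =
        ∑ a, (cc D (P a) + (((Q a).card : ℤ) - (S' a).card)) +
        (∑ a, (cc D (Q a) - cc D (P a)) - ∑ a, (cc D (S' a) - cc D (S a))) := by
      rw [← Finset.sum_sub_distrib, ← Finset.sum_add_distrib]
      refine Finset.sum_congr rfl fun a _ => ?_
      unfold cc
      ring
    rw [h4]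
    linarith

end Vale.Agent.P038.H427
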