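import Vale.Agent.P038.H427.Shift

/-!
# Strict inequality for sets in an arc-minimal counterexample (P038, H427; proof of helper294)
-/

namespace Vale.Agent.P038.H427

open Finset Classical

variable {V : Type*} [Fintype V]

/-- `D` violates the inequality at every vertex. -/
def CE (D : OGraph V) : Prop := ∀ v, (N2 D v).card < (N1 D v).card

/-- The number of arcs. -/
noncomputable def numArcs (D : OGraph V) : ℕ := ∑ v, (N1 D v).card

theorem exists_arcmin (D : OGraph V) (hD : CE D) :
    ∃ D : OGraph V, CE D ∧ ∀ D' : OGraph V, CE D' → numArcs D ≤ numArcs D' := by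
  have hex : ∃ n, ∃ D : OGraph V, CE D ∧ numArcs D = n := ⟨_, D, hD, rfl⟩
  obtain ⟨D0, h1, h2⟩ := Nat.find_spec hex
  exact ⟨D0, h1, fun D' h' => by rw [h2]; exact Nat.find_min' hex ⟨D', h', rfl⟩⟩

theorem strictG {D : OGraph V} (hD : CE D)
    (hmin : ∀ D' : OGraph V, CE D' → numArcs D ≤ numArcs D') (X : Finset V)
    (hX : clo D X ≠ X) : cc D (clo D X) < cc D X := by
  by_contra hcon
  push Not at hcon
  set L := clo D X \ X with hL
  have hLne : L ≠ ∅ := by
    intro h
    exact hX (Subset.antisymm (sdiff_eq_empty_iff_subset.1 h) (sub_clo D X))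
  have hcL : ((clo D X).card : ℤ) - X.card = L.card := by
    have := card_sdiff_add_card_eq_card (sub_clo D X)
    rw [← hL] at this
    omega
  let d : Finset V → ℤ := fun T => ((clo D T \ X).card : ℤ) - 2 * T.card
  have hdL : 0 ≤ d L := by
    have h1 : clo D (clo D X) ⊆ X ∪ (clo D L \ X) := by
      intro x hx
      by_cases hxX : x ∈ X
      · exact mem_union_left _ hxX
      · refine mem_union_right _ (mem_sdiff.2 ⟨?_, hxX⟩)
        rcases mem_clo.1 hx with hx | ⟨y, hy, hyx⟩
        · exact sub_clo D L (mem_sdiff.2 ⟨hx, hxX⟩)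
        · by_cases hyX : y ∈ X
          · exact sub_clo D L (mem_sdiff.2 ⟨mem_clo.2 (Or.inr ⟨y, hyX, hyx⟩), hxX⟩)
          · exact mem_clo.2 (Or.inr ⟨y, mem_sdiff.2 ⟨hy, hyX⟩, hyx⟩)
    have h2 := card_le_card h1
    have h3 := card_union_le X (clo D L \ X)
    simp only [d]
    unfold cc at hcon
    omega
  have hd0 : d ∅ = 0 := by
    have : clo D ∅ = ∅ := by
      ext x
      simp [mem_clo]
    simp [d, this]
  obtain ⟨T, hT, hTmin⟩ := exists_min_image (L.powerset.erase L) d
    ⟨∅, mem_erase.2 ⟨fun h => hLne h.symm, mem_powerset.2 (empty_subset _)⟩⟩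
  have hTL : T ⊆ L := mem_powerset.1 (mem_of_mem_erase hT)
  have hTne : T ≠ L := ne_of_mem_erase hT
  have hall : ∀ T', T' ⊆ L → d T ≤ d T' := by
    intro T' hT'
    by_cases h : T' = L
    · rw [h]
      have := hTmin ∅ (mem_erase.2 ⟨fun h => hLne h.symm, mem_powerset.2 (empty_subset _)⟩)
      linarith
    · exact hTmin T' (mem_erase.2 ⟨h, mem_powerset.2 hT'⟩)
  let D' : OGraph V :=
    { arc := fun u v => D.arc u v ∧ ¬ (u ∈ X ∧ v ∈ L \ T)
      loopless := fun v h => D.loopless v h.1
      asymm := fun u v h h' => D.asymm u v h.1 h'.1 }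
  have hD' : CE D' := by
    intro v
    by_cases hv : v ∈ X
    · set Dv := N1 D v ∩ (L \ T) with hDv
      set Ev := clo D Dv \ (clo D T ∪ X) with hEv
      have hN1 : N1 D' v = N1 D v \ Dv := by
        ext x
        simp only [mem_N1, mem_sdiff, hDv, mem_inter, D']
        tauto
      have hEsub : Ev ⊆ N2 D v ∪ Dv := by
        intro z hz
        obtain ⟨hz1, hz2⟩ := mem_sdiff.1 hz
        have hzX : z ∉ X := fun h => hz2 (mem_union_right _ h)
        have hzT : z ∉ clo D T := fun h => hz2 (mem_union_left _ h)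
        rcases mem_clo.1 hz1 with hz1 | ⟨c, hc, hcz⟩
        · exact mem_union_right _ hz1
        · have hvc : D.arc v c := mem_N1.1 (mem_inter.1 hc).1
          by_cases hvz : D.arc v z
          · refine mem_union_right _ (mem_inter.2 ⟨mem_N1.2 hvz, mem_sdiff.2 ⟨?_, ?_⟩⟩)
            · exact mem_sdiff.2 ⟨mem_clo.2 (Or.inr ⟨v, hv, hvz⟩), hzX⟩
            · exact fun h => hzT (sub_clo D T h)
          · refine mem_union_left _ (mem_N2.2 ⟨?_, hvz, c, hvc, hcz⟩)
            rintro rfl
            exact hzX hv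
      have hN2 : N2 D' v ⊆ (N2 D v ∪ Dv) \ Ev := by
        intro z hz
        obtain ⟨hzv, hnz, c, hvc, hcz⟩ := mem_N2.1 hz
        refine mem_sdiff.2 ⟨?_, ?_⟩
        · by_cases hvz : D.arc v z
          · refine mem_union_right _ (mem_inter.2 ⟨mem_N1.2 hvz, ?_⟩)
            by_contra hzZ
            exact hnz ⟨hvz, fun h => hzZ h.2⟩
          · exact mem_union_left _ (mem_N2.2 ⟨hzv, hvz, c, hvc.1, hcz.1⟩)
        · intro hzE
          obtain ⟨_, hz2⟩ := mem_sdiff.1 hzE
          have hzX : z ∉ X := fun h => hz2 (mem_union_right _ h)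
          have hzT : z ∉ clo D T := fun h => hz2 (mem_union_left _ h)
          by_cases hcX : c ∈ X
          · refine hcz.2 ⟨hcX, mem_sdiff.2 ⟨mem_sdiff.2
              ⟨mem_clo.2 (Or.inr ⟨c, hcX, hcz.1⟩), hzX⟩, fun h => hzT (sub_clo D T h)⟩⟩
          · have hcL : c ∈ L := mem_sdiff.2 ⟨mem_clo.2 (Or.inr ⟨v, hv, hvc.1⟩), hcX⟩
            have hcT : c ∈ T := by
              by_contra hcT
              exact hvc.2 ⟨hv, mem_sdiff.2 ⟨hcL, hcT⟩⟩
            exact hzT (mem_clo.2 (Or.inr ⟨c, hcT, hcz.1⟩))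
      have hDsub : Dv ⊆ N1 D v := inter_subset_left
      have hdis : Disjoint T Dv := by
        rw [Finset.disjoint_left]
        intro z hz hz'
        exact (mem_sdiff.1 (mem_inter.1 hz').2).2 hz
      have h1 := hall (T ∪ Dv) (union_subset hTL (inter_subset_right.trans sdiff_subset))
      have h2 : clo D (T ∪ Dv) \ X ⊆ (clo D T \ X) ∪ Ev := by
        rw [clo_union]
        intro z hz
        simp only [mem_sdiff, mem_union, hEv] at hz ⊢
        tauto
      have h3 := card_le_card h2
      have h4 := card_union_le (clo D T \ X) Ev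
      have h5 : (T ∪ Dv).card = T.card + Dv.card := card_union_of_disjoint hdis
      have h6 := card_le_card hN2
      have h7 := card_sdiff_add_card_eq_card hEsub
      have h8 := card_union_le (N2 D v) Dv
      have h9 := card_sdiff_add_card_eq_card hDsub
      have h10 := hD v
      rw [hN1]
      simp only [d] at h1
      omega
    · have h1 : N1 D' v = N1 D v := by
        ext x
        simp only [mem_N1, D']
        exact ⟨fun h => h.1, fun h => ⟨h, fun h' => hv h'.1⟩⟩
      have h2 : N2 D' v ⊆ N2 D v := by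
        intro z hz
        obtain ⟨hzv, hnz, c, hvc, hcz⟩ := mem_N2.1 hz
        exact mem_N2.2 ⟨hzv, fun h => hnz ⟨h, fun h' => hv h'.1⟩, c, hvc.1, hcz.1⟩
      rw [h1]
      exact lt_of_le_of_lt (card_le_card h2) (hD v)
  have hlt : numArcs D' < numArcs D := by
    obtain ⟨l, hl⟩ : (L \ T).Nonempty := by
      rw [Finset.nonempty_iff_ne_empty]
      intro h
      exact hTne (Subset.antisymm hTL (sdiff_eq_empty_iff_subset.1 h))
    have hlL := (mem_sdiff.1 hl).1
    obtain ⟨x, hx, hxl⟩ : ∃ x ∈ X, D.arc x l := by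
      rcases mem_clo.1 (mem_sdiff.1 hlL).1 with h | h
      · exact absurd h (mem_sdiff.1 hlL).2
      · exact h
    have hsub : ∀ v, N1 D' v ⊆ N1 D v := fun v z hz => mem_N1.2 (mem_N1.1 hz).1
    unfold numArcs
    refine Finset.sum_lt_sum (fun v _ => card_le_card (hsub v)) ⟨x, mem_univ _, ?_⟩
    refine card_lt_card ⟨hsub x, fun h => ?_⟩
    exact (mem_N1.1 (h (mem_N1.2 hxl))).2 ⟨hx, hl⟩
  exact absurd (hmin D' hD') (not_le.2 hlt)

end Vale.Agent.P038.H427
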